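import Mathlib

/-!
# The norm of `F ⊗ L` over `F`, `L / K` Galois
-/

open Matrix TensorProduct

namespace Vale.Agent.P011.H132.Odd

variable {K L F : Type*} [Field K] [Field L] [Algebra K L] [Field F] [Algebra K F] {m : ℕ}
  (b : Module.Basis (Fin m) K L)

/-- the twist of `F ⊗ L` -/
noncomputable def twF (F : Type*) [Field F] [Algebra K F] (τ : L ≃ₐ[K] L) :
    F ⊗[K] L →ₐ[K] F ⊗[K] L :=
  Algebra.TensorProduct.map (AlgHom.id K F) (τ : L →ₐ[K] L)

@[simp] theorem twF_tmul (τ : L ≃ₐ[K] L) (x : F) (c : L) :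
    twF F τ (x ⊗ₜ c) = x ⊗ₜ τ c := by
  simp [twF]

theorem det_ne (e : Fin m → (L ≃ₐ[K] L)) (he : Function.Injective e) :
    (Matrix.of fun k j => e k (b j)).det ≠ 0 := by
  intro h0
  obtain ⟨v, hv, h1⟩ := Matrix.exists_vecMul_eq_zero_iff.mpr h0
  apply hv
  have hli := linearIndependent_toLinearMap K L L
  have hli2 : LinearIndependent L (fun k : Fin m => ((e k : L →ₐ[K] L)).toLinearMap) := by
    refine hli.comp (fun k : Fin m => ((e k : L →ₐ[K] L))) fun i j hij => he ?_
    ext x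
    exact DFunLike.congr_fun hij x
  have h2 : ∑ k, v k • ((e k : L →ₐ[K] L)).toLinearMap = 0 := by
    refine b.ext fun j => ?_
    have h3 := congrFun h1 j
    simp only [Matrix.vecMul, dotProduct, Matrix.of_apply, Pi.zero_apply] at h3
    rw [LinearMap.zero_apply, LinearMap.sum_apply]
    exact h3
  exact funext (Fintype.linearIndependent_iff.mp hli2 v h2)

/-- **the norm is the product of the conjugates** -/
theorem nfm_prod (e : Fin m → (L ≃ₐ[K] L)) (he : Function.Injective e) (y : Fin m → F) :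
    ∏ k, twF F (e k) (∑ i, y i ⊗ₜ b i)
      = (∑ i, y i • (Algebra.leftMulMatrix b (b i)).map (algebraMap K F)).det ⊗ₜ 1 := by
  set X := ∑ i, y i • (Algebra.leftMulMatrix b (b i)).map (algebraMap K F) with hX
  set w : F ⊗[K] L := ∑ i, y i ⊗ₜ b i with hw
  let inl : F →+* F ⊗[K] L := (Algebra.TensorProduct.includeLeft : F →ₐ[K] F ⊗[K] L)
  let inr : L →+* F ⊗[K] L := (Algebra.TensorProduct.includeRight : L →ₐ[K] F ⊗[K] L)
  let Λ0 : Matrix (Fin m) (Fin m) L := Matrix.of fun k j => e k (b j)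
  have key : Λ0.map inr * X.map inl = Matrix.diagonal (fun k => twF F (e k) w) * Λ0.map inr := by
    ext k j
    rw [Matrix.diagonal_mul, Matrix.mul_apply]
    have h1 : (twF F (e k)) w * (Λ0.map inr) k j = twF F (e k) (w * (1 ⊗ₜ b j)) := by
      rw [map_mul, twF_tmul]; rfl
    have h2 : w * (1 ⊗ₜ b j) = ∑ i, X i j ⊗ₜ[K] b i := by
      rw [hw, Finset.sum_mul]
      have h3 : ∀ l, y l ⊗ₜ[K] b l * 1 ⊗ₜ[K] b j
          = ∑ i, (y l * algebraMap K F (Algebra.leftMulMatrix b (b l) i j)) ⊗ₜ[K] b i := by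
        intro l
        rw [Algebra.TensorProduct.tmul_mul_tmul, mul_one]
        conv_lhs => rw [← b.sum_repr (b l * b j)]
        rw [TensorProduct.tmul_sum]
        refine Finset.sum_congr rfl fun i _ => ?_
        rw [Algebra.leftMulMatrix_eq_repr_mul, TensorProduct.tmul_smul,
          TensorProduct.smul_tmul', Algebra.smul_def, mul_comm]
      rw [Finset.sum_congr rfl fun l _ => h3 l, Finset.sum_comm]
      refine Finset.sum_congr rfl fun i _ => ?_
      rw [← TensorProduct.sum_tmul, hX, Matrix.sum_apply]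
      congr 1
    rw [h1, h2, map_sum]
    refine Finset.sum_congr rfl fun i _ => ?_
    rw [twF_tmul]
    change (1 ⊗ₜ[K] (e k (b i))) * (X i j ⊗ₜ[K] 1) = _
    rw [Algebra.TensorProduct.tmul_mul_tmul, one_mul, mul_one]
  have h4 := congrArg Matrix.det key
  rw [Matrix.det_mul, Matrix.det_mul, Matrix.det_diagonal] at h4
  have h5 : (Λ0.map inr).det = inr Λ0.det := (RingHom.map_det inr Λ0).symm
  have h6 : (X.map inl).det = inl X.det := (RingHom.map_det inl X).symm
  have h7 : IsUnit (inr Λ0.det) := (isUnit_iff_ne_zero.mpr (det_ne b e he)).map inr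
  rw [h5, h6, mul_comm (inr Λ0.det)] at h4
  exact (h7.mul_right_cancel h4).symm

end Vale.Agent.P011.H132.Odd
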