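import Vale.Agent.P011.H132.Odd.Trans
import Vale.Agent.P011.H132.Odd.Nfm

/-!
# The local homomorphism on `GL_n(L)`: invariance under the Galois group, Hilbert 90
-/

open Matrix TensorProduct Topology Filter

namespace Vale.Agent.P011.H132.Odd

open Vale.Agent.P011.H605.Odd

section top

variable {D : Type*} [DivisionRing D] [TopologicalSpace D] [IsTopologicalRing D]
  {O : Subring D} {I : AddSubgroup D} {m : ℕ}

omit [IsTopologicalRing D] in
theorem mI_nhds (hI : (I : Set D) ∈ 𝓝 0) :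
    ((mI m I : AddSubgroup _) : Set (Matrix (Fin m) (Fin m) D)) ∈ 𝓝 0 := by
  have h : ∀ i j : Fin m, ∀ᶠ x : Matrix (Fin m) (Fin m) D in 𝓝 0, x i j ∈ I := fun i j => by
    have hc : Continuous fun x : Matrix (Fin m) (Fin m) D => x i j :=
      continuous_id.matrix_elem i j
    have := hc.tendsto 0
    exact this (by simpa using hI)
  have h2 := Filter.eventually_all.mpr fun i => Filter.eventually_all.mpr fun j => h i j
  exact h2

theorem zI_nhds (hI : (I : Set D) ∈ 𝓝 0) (z : D) : ((zI z I : AddSubgroup D) : Set D) ∈ 𝓝 0 := by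
  have hc : Continuous fun x : D => z⁻¹ * x := continuous_const.mul continuous_id
  have := hc.tendsto 0
  rw [mul_zero] at this
  exact this hI

end top

section main

variable {K D L : Type*} [Field K] [DivisionRing D] [Algebra K D] [Field L] [Algebra K L]
  {m n : ℕ} (b : Module.Basis (Fin m) K L)
  (Θ : D ⊗[K] L ≃ₐ[K] Matrix (Fin n) (Fin n) L)

/-- the embedding of `M_n(L)` in `M_m(D)` -/
noncomputable def GG : Matrix (Fin n) (Fin n) L →+* Matrix (Fin m) (Fin m) D :=
  ((xx D b : D ⊗[K] L →ₐ[K] Matrix (Fin m) (Fin m) D) : D ⊗[K] L →+* Matrix (Fin m) (Fin m) D).comp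
    (Θ.symm : Matrix (Fin n) (Fin n) L →+* D ⊗[K] L)

theorem GG_apply (y : Matrix (Fin n) (Fin n) L) : GG b Θ y = xx D b (Θ.symm y) := rfl

/-- the Galois action on `M_n(L) = D ⊗ L` -/
noncomputable def sg (τ : L ≃ₐ[K] L) : Matrix (Fin n) (Fin n) L ≃+* Matrix (Fin n) (Fin n) L :=
  (Θ.symm.trans ((tw D τ).trans Θ)).toRingEquiv

theorem sg_apply (τ : L ≃ₐ[K] L) (y : Matrix (Fin n) (Fin n) L) :
    sg Θ τ y = Θ (tw D τ (Θ.symm y)) := rfl

theorem GG_sg (τ : L ≃ₐ[K] L) (y : Matrix (Fin n) (Fin n) L) :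
    GG b Θ (sg Θ τ y) = ss D b τ * GG b Θ y * ss D b τ.symm := by
  rw [GG_apply, GG_apply, sg_apply, AlgEquiv.symm_apply_apply, xx_tw]

variable (hΘ : ∀ c : L, Θ (1 ⊗ₜ c) = Matrix.scalar (Fin n) c)
include hΘ

theorem symm_scalar (c : L) : Θ.symm (Matrix.scalar (Fin n) c) = 1 ⊗ₜ c := by
  rw [← hΘ, AlgEquiv.symm_apply_apply]

theorem GG_scalar (c : L) : GG b Θ (Matrix.scalar (Fin n) c) = reg D b c := by
  rw [GG_apply, symm_scalar Θ hΘ, xx_one_tmul]

theorem sg_scalar (τ : L ≃ₐ[K] L) (c : L) :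
    sg Θ τ (Matrix.scalar (Fin n) c) = Matrix.scalar (Fin n) (τ c) := by
  rw [sg_apply, symm_scalar Θ hΘ, tw_tmul, hΘ]

theorem det_sg (τ : L ≃ₐ[K] L) (y : Matrix (Fin n) (Fin n) L) : (sg Θ τ y).det = τ y.det :=
  det_semi (sg Θ τ) τ.toRingEquiv (fun c => sg_scalar Θ hΘ τ c) y

theorem GG_sum (y : Matrix (Fin n) (Fin n) L) :
    GG b Θ y = ∑ i, ∑ j, reg D b (y i j) * GG b Θ (Matrix.single i j 1) := by
  conv_lhs => rw [Matrix.matrix_eq_sum_single y]
  rw [map_sum]
  refine Finset.sum_congr rfl fun i _ => ?_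
  rw [map_sum]
  refine Finset.sum_congr rfl fun j _ => ?_
  have e : Matrix.single i j (y i j) = Matrix.scalar (Fin n) (y i j) * Matrix.single i j 1 := by
    ext a b
    rw [Matrix.scalar_apply, Matrix.diagonal_mul]
    simp [Matrix.single_apply]
  rw [e, map_mul, GG_scalar b Θ hΘ]

theorem reg_entry (y : Matrix (Fin n) (Fin n) L) (i j : Fin n) :
    reg D b (y i j) = ∑ k, GG b Θ (Matrix.single k i 1) * GG b Θ y * GG b Θ (Matrix.single j k 1) := by
  have e : Matrix.scalar (Fin n) (y i j)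
      = ∑ k, Matrix.single k i 1 * y * Matrix.single j k 1 := by
    have h1 : ∀ k, Matrix.single k i (1 : L) * y * Matrix.single j k 1
        = Matrix.single k k (y i j) := fun k => by
      rw [Matrix.single_mul_mul_single, one_mul, mul_one]
    rw [Finset.sum_congr rfl fun k _ => h1 k]
    ext a c
    rw [Matrix.scalar_apply, Matrix.diagonal_apply, Matrix.sum_apply]
    simp only [Matrix.single_apply]
    by_cases hac : a = c
    · subst hac
      simp
    · rw [if_neg hac]
      symm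
      refine Finset.sum_eq_zero fun k _ => if_neg ?_
      rintro ⟨rfl, rfl⟩
      exact hac rfl
  rw [← GG_scalar b Θ hΘ, e, map_sum]
  refine Finset.sum_congr rfl fun k _ => ?_
  rw [map_mul, map_mul]

end main

end Vale.Agent.P011.H132.Odd
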