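import Vale.Agent.P011.H132.Odd.RwA

/-!
# The local homomorphism on `GL_n(L)`: Galois invariance and Hilbert 90, topological part
-/

open Matrix TensorProduct Topology Filter

namespace Vale.Agent.P011.H132.Odd

open Vale.Agent.P011.H605.Odd

set_option linter.unusedSectionVars false

section det

variable {L : Type*} [Field L] {n : ℕ}

theorem det_one_add_single (i₀ : Fin n) (μ : L) :
    (1 + Matrix.single i₀ i₀ (μ - 1) : Matrix (Fin n) (Fin n) L).det = μ := by
  have e : (1 + Matrix.single i₀ i₀ (μ - 1) : Matrix (Fin n) (Fin n) L)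
      = Matrix.diagonal (Function.update 1 i₀ μ) := by
    ext i j
    rw [Matrix.add_apply, Matrix.one_apply, Matrix.diagonal_apply, Matrix.single_apply]
    by_cases hij : i = j
    · subst hij
      by_cases hi : i₀ = i
      · subst hi; simp
      · simp [hi, Function.update_of_ne (Ne.symm hi)]
    · rw [if_neg hij, if_neg hij, if_neg, add_zero]
      rintro ⟨rfl, rfl⟩
      exact hij rfl
  rw [e, Matrix.det_diagonal, Finset.prod_update_of_mem (Finset.mem_univ i₀)]
  simp

end det

section topo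

variable {K D L : Type*} [Field K] [DivisionRing D] [Algebra K D] [Field L] [Algebra K L]
  {m n : ℕ} {b : Module.Basis (Fin m) K L}
  [TopologicalSpace D] [IsTopologicalRing D] [TopologicalSpace L]

theorem topRing (hind : IsInducing (reg D b)) : IsTopologicalRing L where
  continuous_add := hind.continuous_iff.mpr (by
    have : reg D b ∘ (fun p : L × L => p.1 + p.2) = fun p => reg D b p.1 + reg D b p.2 := by
      ext p; simp
    rw [this]
    exact (hind.continuous.comp continuous_fst).add (hind.continuous.comp continuous_snd))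
  continuous_mul := hind.continuous_iff.mpr (by
    have : reg D b ∘ (fun p : L × L => p.1 * p.2) = fun p => reg D b p.1 * reg D b p.2 := by
      funext p; simp
    rw [this]
    exact (hind.continuous.comp continuous_fst).mul (hind.continuous.comp continuous_snd))
  continuous_neg := hind.continuous_iff.mpr (by
    have : reg D b ∘ (fun p : L => -p) = fun p => -reg D b p := by
      funext p; simp
    rw [this]
    exact hind.continuous.neg)

theorem reg_gal (τ : L ≃ₐ[K] L) (c : L) :
    reg D b (τ c) = ss D b τ * reg D b c * ss D b τ.symm := by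
  rw [← xx_one_tmul, ← xx_one_tmul, ← xx_tw, tw_tmul]

theorem cont_gal (hind : IsInducing (reg D b)) (τ : L ≃ₐ[K] L) : Continuous τ :=
  hind.continuous_iff.mpr (by
    have : reg D b ∘ τ = fun c => ss D b τ * reg D b c * ss D b τ.symm := by
      funext c; exact reg_gal τ c
    rw [this]
    exact (continuous_const.mul hind.continuous).mul continuous_const)

variable (Θ : D ⊗[K] L ≃ₐ[K] Matrix (Fin n) (Fin n) L)
  (hΘ : ∀ c : L, Θ (1 ⊗ₜ c) = Matrix.scalar (Fin n) c)

include hΘ

theorem cont_GG (hind : IsInducing (reg D b)) : Continuous (GG b Θ) := by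
  have : (GG b Θ : Matrix (Fin n) (Fin n) L → Matrix (Fin m) (Fin m) D)
      = fun y => ∑ i, ∑ j, reg D b (y i j) * GG b Θ (Matrix.single i j 1) := by
    funext y; exact GG_sum b Θ hΘ y
  rw [this]
  refine continuous_finsetSum _ fun i _ => continuous_finsetSum _ fun j _ => ?_
  exact (hind.continuous.comp (continuous_id.matrix_elem i j)).mul continuous_const

theorem cont_of_GG (hind : IsInducing (reg D b)) {X : Type*} [TopologicalSpace X]
    {f : X → Matrix (Fin n) (Fin n) L} (hf : Continuous fun x => GG b Θ (f x)) :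
    Continuous f := by
  refine continuous_matrix fun i j => hind.continuous_iff.mpr ?_
  have : (reg D b ∘ fun x => f x i j) = fun x => ∑ k, GG b Θ (Matrix.single k i 1) * GG b Θ (f x)
      * GG b Θ (Matrix.single j k 1) := by
    funext x; exact reg_entry b Θ hΘ (f x) i j
  rw [this]
  exact continuous_finsetSum _ fun k _ => (continuous_const.mul hf).mul continuous_const

theorem cont_sg (hind : IsInducing (reg D b)) (τ : L ≃ₐ[K] L) : Continuous (sg Θ τ) := by
  refine cont_of_GG Θ hΘ hind ?_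
  simp only [GG_sg]
  exact (continuous_const.mul (cont_GG Θ hΘ hind)).mul continuous_const

theorem cont_Y (hind : IsInducing (reg D b)) :
    Continuous fun e : Fin m → D => Θ (∑ i, e i ⊗ₜ b i) := by
  refine cont_of_GG Θ hΘ hind ?_
  simp only [GG_apply, AlgEquiv.symm_apply_apply, map_sum]
  refine continuous_finsetSum _ fun l _ => continuous_matrix fun i j => ?_
  simp only [xx_tmul_apply]
  exact (continuous_apply l).mul continuous_const

variable {E : Type*} [AddCommGroup E] {O : Subring D} {I : AddSubgroup D} {Ψ : D → E}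

theorem iL_nhds (hind : IsInducing (reg D b)) (hI : (I : Set D) ∈ 𝓝 0) (z : D) :
    ((iL (GG b Θ) z I : AddSubgroup L) : Set L) ∈ 𝓝 0 := by
  have h1 := mI_nhds (m := m) (zI_nhds hI (z * z))
  have h2 : Tendsto (reg D b) (𝓝 0) (𝓝 0) := by
    have := hind.continuous.tendsto 0
    rwa [map_zero] at this
  have h3 := h2 h1
  refine Filter.mem_of_superset h3 fun c hc => ?_
  have : GG b Θ (Matrix.scalar (Fin n) c) ∈ mI m (zI (z * z) I) := by
    rw [GG_scalar b Θ hΘ]; exact hc
  exact this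

omit hΘ in
theorem exists_dt (h : Rd O I Ψ) (hI : (I : Set D) ∈ 𝓝 0)
    (hK : ∀ U ∈ 𝓝 (0 : D), ∃ z : K, z ≠ 0 ∧ algebraMap K D z ∈ U) :
    ∃ z : K, Dt O I Ψ (algebraMap K D z) (GG b Θ) := by
  have h1 : ∀ i j k l, ∀ᶠ x : D in 𝓝 0, x * GG b Θ (Matrix.single i j 1) k l ∈ I := by
    intro i j k l
    have hc : Continuous fun x : D => x * GG b Θ (Matrix.single i j 1) k l :=
      continuous_id.mul continuous_const
    have := hc.tendsto 0
    rw [zero_mul] at this
    exact this hI
  have h2 := Filter.eventually_all.mpr fun i => Filter.eventually_all.mpr fun j =>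
    Filter.eventually_all.mpr fun k => Filter.eventually_all.mpr fun l => h1 i j k l
  obtain ⟨z, hz0, hz⟩ := hK _ (Filter.inter_mem h2 hI)
  exact ⟨z, h, (map_ne_zero _).mpr hz0, h.le _ hz.2, fun x => Algebra.commutes z x, hz.1⟩

/-- **Galois invariance of the local character of `L`** -/
theorem ev_sigma (hind : IsInducing (reg D b)) (hI : (I : Set D) ∈ 𝓝 0)
    (hK : ∀ U ∈ 𝓝 (0 : D), ∃ z : K, z ≠ 0 ∧ algebraMap K D z ∈ U)
    {z : D} (hD : Dt O I Ψ z (GG b Θ)) (hm : 0 < m) (i₀ : Fin n) (τ : L ≃ₐ[K] L) :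
    ∀ᶠ μ in 𝓝 (1 : L), psiL (GG b Θ) Ψ i₀ (τ μ) = psiL (GG b Θ) Ψ i₀ μ := by
  have hTR := topRing hind
  have hO : (O : Set D) ∈ 𝓝 0 := Filter.mem_of_superset hI fun x hx => hD.rd.le _ hx
  -- the scalar `w`
  have h1 : ∀ (τ : L ≃ₐ[K] L) (i j : Fin m), ∀ᶠ x : D in 𝓝 0, x * ss D b τ i j ∈ O := by
    intro τ i j
    have hc : Continuous fun x : D => x * ss D b τ i j := continuous_id.mul continuous_const
    have := hc.tendsto 0
    rw [zero_mul] at this
    exact this hO
  have h2 : ∀ τ : L ≃ₐ[K] L, ∀ᶠ x : D in 𝓝 0, ∀ i j, x * ss D b τ i j ∈ O := fun τ =>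
    Filter.eventually_all.mpr fun i => Filter.eventually_all.mpr fun j => h1 τ i j
  obtain ⟨w, hw0, hw⟩ := hK _ (Filter.inter_mem (Filter.inter_mem (h2 τ) (h2 τ.symm)) hO)
  set w' : D := algebraMap K D w with hw'
  -- the matrices
  have hy : Continuous fun μ : L => (1 + Matrix.single i₀ i₀ (μ - 1) : Matrix (Fin n) (Fin n) L) := by
    refine continuous_matrix fun i j => ?_
    simp only [Matrix.add_apply, Matrix.single_apply]
    by_cases hij : i₀ = i ∧ i₀ = j
    · simp only [if_pos hij]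
      exact continuous_const.add (continuous_id.sub continuous_const)
    · simp only [if_neg hij]
      exact continuous_const
  have hy1 : (1 + Matrix.single i₀ i₀ ((1 : L) - 1) : Matrix (Fin n) (Fin n) L) = 1 := by simp
  have hcg : ∀ {J : AddSubgroup L} {f : L → Matrix (Fin n) (Fin n) L}, (J : Set L) ∈ 𝓝 0 →
      Continuous f → f 1 = 1 → ∀ᶠ μ in 𝓝 (1 : L), Cg J (f μ) := by
    intro J f hJ hf hf1
    have h3 := mI_nhds (m := n) hJ
    have h4 : Tendsto (fun μ => f μ - 1) (𝓝 1) (𝓝 0) := by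
      have := (hf.sub continuous_const).tendsto (1 : L) (f := fun μ => f μ - 1)
      simpa [hf1] using this
    exact h4 h3
  have hiL := iL_nhds (m := m) (b := b) Θ hΘ hind hI z
  have E1 := hcg hiL hy hy1
  have E2 := hcg hiL ((cont_sg (b := b) Θ hΘ hind τ).comp hy) (by
    rw [Function.comp_apply, hy1, map_one])
  have E3 : ∀ᶠ μ in 𝓝 (1 : L), Cg (zI (w' * w') I)
      (GG b Θ (1 + Matrix.single i₀ i₀ (μ - 1))) := by
    have h3 := mI_nhds (m := m) (zI_nhds hI (w' * w'))
    have h4 : Tendsto (fun μ : L => GG b Θ (1 + Matrix.single i₀ i₀ (μ - 1)) - 1) (𝓝 1) (𝓝 0) := by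
      have hc2 : Continuous fun μ : L => GG b Θ (1 + Matrix.single i₀ i₀ (μ - 1)) - 1 :=
        ((cont_GG Θ hΘ hind).comp hy).sub continuous_const
      have := hc2.tendsto (1 : L)
      simpa [hy1] using this
    exact h4 h3
  filter_upwards [E1, E2, E3] with μ e1 e2 e3
  have f1 := (hD.det hm i₀ e1).2.2
  have f2 := (hD.det hm i₀ e2).2.2
  rw [Function.comp_apply, det_sg Θ hΘ, det_one_add_single, GG_sg] at f2
  rw [det_one_add_single] at f1
  rw [← f2, ← f1]
  exact (ps_conj_any hD.rd ((map_ne_zero _).mpr hw0) hw.2 (fun x => Algebra.commutes w x)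
    (ss D b τ) (ss D b τ.symm) (ss_symm_mul b τ) hw.1.1 hw.1.2 _ e3).2

omit hΘ in
/-- the explicit Hilbert 90 element -/
theorem h90_alg (σ : L ≃ₐ[K] L) (hσ : σ ^ m = 1) (θ lm : L)
    (hl : ∏ j ∈ Finset.range m, (σ ^ j) lm = 1) :
    lm * σ (∑ k ∈ Finset.range m, (∏ j ∈ Finset.range k, (σ ^ j) lm) * (σ ^ k) θ)
      = ∑ k ∈ Finset.range m, (∏ j ∈ Finset.range k, (σ ^ j) lm) * (σ ^ k) θ := by
  have h1 : ∀ k, lm * σ ((∏ j ∈ Finset.range k, (σ ^ j) lm) * (σ ^ k) θ)
      = (∏ j ∈ Finset.range (k + 1), (σ ^ j) lm) * (σ ^ (k + 1)) θ := by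
    intro k
    rw [map_mul, map_prod, Finset.prod_range_succ']
    have e1 : ∀ j, σ ((σ ^ j) lm) = (σ ^ (j + 1)) lm := fun j => by
      rw [pow_succ']; rfl
    have e2 : σ ((σ ^ k) θ) = (σ ^ (k + 1)) θ := by rw [pow_succ']; rfl
    rw [e2, Finset.prod_congr rfl fun j _ => e1 j, pow_zero, AlgEquiv.one_apply]
    ring
  rw [map_sum, Finset.mul_sum, Finset.sum_congr rfl fun k _ => h1 k]
  set f : ℕ → L := fun k => (∏ j ∈ Finset.range k, (σ ^ j) lm) * (σ ^ k) θ with hf
  have h2 := Finset.sum_range_succ f m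
  have h3 := Finset.sum_range_succ' f m
  have h4 : f m = f 0 := by
    simp only [hf, hl, hσ, Finset.range_zero, Finset.prod_empty, pow_zero]
  rw [h4] at h2
  have h5 := h2.symm.trans h3
  exact (add_right_cancel h5).symm

/-- **Hilbert 90 near one** -/
theorem ev_h90 (hind : IsInducing (reg D b)) (hI : (I : Set D) ∈ 𝓝 0)
    (hK : ∀ U ∈ 𝓝 (0 : D), ∃ z : K, z ≠ 0 ∧ algebraMap K D z ∈ U)
    {z : D} (hD : Dt O I Ψ z (GG b Θ)) (hm : 0 < m) (i₀ : Fin n) (σ : L ≃ₐ[K] L)
    (hσ : σ ^ m = 1) (θ : L) (hθ : ∑ k ∈ Finset.range m, (σ ^ k) θ = 1) :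
    ∀ᶠ lm in 𝓝 (1 : L), ∏ j ∈ Finset.range m, (σ ^ j) lm = 1 → psiL (GG b Θ) Ψ i₀ lm = 0 := by
  have hTR := topRing hind
  set μ : L → L := fun lm => ∑ k ∈ Finset.range m, (∏ j ∈ Finset.range k, (σ ^ j) lm) * (σ ^ k) θ
    with hμ
  have hc : Continuous μ := by
    refine continuous_finsetSum _ fun k _ => ?_
    refine Continuous.mul ?_ continuous_const
    exact continuous_finsetProd _ fun j _ => cont_gal hind (σ ^ j)
  have hμ1 : μ 1 = 1 := by
    simp only [hμ, map_one, Finset.prod_const_one, one_mul]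
    exact hθ
  have hiL := iL_nhds (m := m) (b := b) Θ hΘ hind hI z
  have hsub : ∀ {f : L → L}, Continuous f → f 1 = 1 →
      ∀ᶠ lm in 𝓝 (1 : L), f lm - 1 ∈ iL (GG b Θ) z I := by
    intro f hf hf1
    have h4 : Tendsto (fun x => f x - 1) (𝓝 1) (𝓝 0) := by
      have := (hf.sub continuous_const).tendsto (1 : L) (f := fun x => f x - 1)
      simpa [hf1] using this
    exact h4 hiL
  have E1 := hsub continuous_id rfl
  have E2 := hsub ((cont_gal hind σ).comp hc) (by rw [Function.comp_apply, hμ1, map_one])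
  have E3 : ∀ᶠ lm in 𝓝 (1 : L), psiL (GG b Θ) Ψ i₀ (σ (μ lm)) = psiL (GG b Θ) Ψ i₀ (μ lm) := by
    have h1 := ev_sigma Θ hΘ hind hI hK hD hm i₀ σ
    have h2 : Tendsto μ (𝓝 1) (𝓝 1) := by
      have := hc.tendsto 1
      rwa [hμ1] at this
    exact h2.eventually h1
  filter_upwards [E1, E2, E3] with lm e1 e2 e3 hl
  have hr := hD.rdL hm i₀
  have h1 := h90_alg (m := m) σ hσ θ lm hl
  have h2 := hr.add' e1 e2
  rw [Function.comp_apply, id_eq] at h2
  have h3 : lm * σ (μ lm) = μ lm := h1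
  rw [h3, e3] at h2
  exact (right_eq_add.mp h2)

end topo

end Vale.Agent.P011.H132.Odd
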