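import Mathlib

/-!
# The isomorphism `D ⊗ L = M_n(L)` of a splitting field
-/

open Matrix TensorProduct Module

namespace Vale.Agent.P011.H132.Odd

variable {n : ℕ} {K D L : Type*} [Field K] [DivisionRing D] [Algebra K D]
  [Algebra.IsCentral K D] [Field L] [Algebra K L]

theorem range_of_comm {y : D} (hy : ∀ a : D, a * y = y * a) : ∃ k : K, algebraMap K D k = y := by
  have h1 : y ∈ Subalgebra.center K D := Subalgebra.mem_center_iff.mpr hy
  rw [Algebra.IsCentral.center_eq_bot] at h1
  exact Algebra.mem_bot.mp h1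

theorem rel_aux (hp : 0 < n) (f : D →ₐ[K] Matrix (Fin n) (Fin n) L)
    {ι : Type*} [DecidableEq ι] (c : ι → L) (hc : LinearIndependent K c) :
    ∀ (s : Finset ι) (x : ι → D), (∑ j ∈ s, c j • f (x j) = 0) → ∀ j ∈ s, x j = 0 := by
  intro s
  induction s using Finset.strongInduction with
  | H s ih =>
    intro x hx
    by_contra hcon
    push Not at hcon
    obtain ⟨j0, hj0, hne⟩ := hcon
    let y : ι → D := fun j => (x j0)⁻¹ * x j
    have hy0 : y j0 = 1 := inv_mul_cancel₀ hne
    have hy : ∑ j ∈ s, c j • f (y j) = 0 := by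
      have := congrArg (fun m => f (x j0)⁻¹ * m) hx
      simp only [Finset.mul_sum, mul_zero, mul_smul_comm] at this
      rw [← this]
      refine Finset.sum_congr rfl fun j _ => ?_
      rw [← map_mul]
    have hcomm : ∀ j ∈ s, ∀ a : D, a * y j = y j * a := by
      intro j hj a
      by_cases hjj : j = j0
      · rw [hjj, hy0]; simp
      · have := ih (s.erase j0) (Finset.erase_ssubset hj0) (fun j => a * y j - y j * a) (by
          have h1 : ∑ j ∈ s, c j • f (a * y j - y j * a) = 0 := by
            have e1 := congrArg (fun m => f a * m) hy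
            have e2 := congrArg (fun m => m * f a) hy
            simp only [Finset.mul_sum, mul_smul_comm, mul_zero, Finset.sum_mul, smul_mul_assoc,
              zero_mul] at e1 e2
            calc ∑ j ∈ s, c j • f (a * y j - y j * a)
                = ∑ j ∈ s, c j • (f a * f (y j)) - ∑ j ∈ s, c j • (f (y j) * f a) := by
                  rw [← Finset.sum_sub_distrib]
                  refine Finset.sum_congr rfl fun j _ => ?_
                  rw [map_sub, map_mul f a (y j), map_mul f (y j) a, smul_sub]
              _ = 0 := by rw [e1, e2, sub_zero]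
          rw [← Finset.add_sum_erase s _ hj0, hy0] at h1
          simpa only [map_sub, map_mul, mul_one, one_mul, sub_self, map_zero, smul_zero,
            zero_add] using h1) j (Finset.mem_erase.mpr ⟨hjj, hj⟩)
        exact sub_eq_zero.mp this
    have hK : ∀ j, ∃ k : K, j ∈ s → algebraMap K D k = y j := by
      intro j
      by_cases hj : j ∈ s
      · obtain ⟨k, hk⟩ := range_of_comm (K := K) (hcomm j hj)
        exact ⟨k, fun _ => hk⟩
      · exact ⟨0, fun h => absurd h hj⟩
    choose k hk using hK
    have h1 : ∑ j ∈ s, k j • c j = 0 := by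
      have h2 := congrFun (congrFun hy ⟨0, hp⟩) ⟨0, hp⟩
      rw [Matrix.sum_apply] at h2
      rw [Matrix.zero_apply] at h2
      rw [← h2]
      refine Finset.sum_congr rfl fun j hj => ?_
      rw [← hk j hj, AlgHom.commutes, Matrix.smul_apply, Matrix.algebraMap_matrix_apply]
      simp [Algebra.smul_def, mul_comm]
    have h2 := (linearIndependent_iff'.mp hc) s k h1 j0 hj0
    have h3 := hk j0 hj0
    rw [h2, hy0, map_zero] at h3
    exact zero_ne_one h3

theorem exists_theta [FiniteDimensional K D] [FiniteDimensional K L] (hn : 0 < n)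
    (hdeg : finrank K D = n ^ 2) (g : D →ₐ[K] Matrix (Fin n) (Fin n) L) :
    ∃ Θ : D ⊗[K] L ≃ₐ[K] Matrix (Fin n) (Fin n) L,
      (∀ c : L, Θ (1 ⊗ₜ c) = Matrix.scalar (Fin n) c) ∧ ∀ d : D, Θ (d ⊗ₜ 1) = g d := by
  classical
  let sL : L →ₐ[K] Matrix (Fin n) (Fin n) L := Matrix.scalarAlgHom (Fin n) K
  have hcomm : ∀ (d : D) (c : L), Commute (g d) (sL c) := fun d c =>
    (Matrix.scalar_commute c (fun r => mul_comm _ _) (g d)).symm
  let f : D ⊗[K] L →ₐ[K] Matrix (Fin n) (Fin n) L := Algebra.TensorProduct.lift g sL hcomm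
  have hf : ∀ (d : D) (c : L), f (d ⊗ₜ c) = c • g d := fun d c => by
    have h1 : f (d ⊗ₜ c) = g d * Matrix.scalar (Fin n) c :=
      Algebra.TensorProduct.lift_tmul g sL hcomm d c
    rw [h1]
    ext i j
    rw [Matrix.scalar_apply, Matrix.mul_diagonal, Matrix.smul_apply, smul_eq_mul, mul_comm]
  let b := Module.finBasis K L
  have hco : ∀ y : D ⊗[K] L, ∃ x : Fin (finrank K L) → D, y = ∑ j, x j ⊗ₜ[K] b j := by
    intro y
    induction y using TensorProduct.induction_on with
    | zero => exact ⟨0, by simp⟩
    | tmul d c =>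
      refine ⟨fun j => b.repr c j • d, ?_⟩
      conv_lhs => rw [← b.sum_repr c, TensorProduct.tmul_sum]
      refine Finset.sum_congr rfl fun j _ => ?_
      rw [TensorProduct.tmul_smul, TensorProduct.smul_tmul']
    | add y z ihy ihz =>
      obtain ⟨x, hx⟩ := ihy
      obtain ⟨x', hx'⟩ := ihz
      refine ⟨fun j => x j + x' j, ?_⟩
      conv_lhs => rw [hx, hx']
      rw [← Finset.sum_add_distrib]
      exact Finset.sum_congr rfl fun j _ => (TensorProduct.add_tmul _ _ _).symm
  have hinj : Function.Injective f := by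
    rw [injective_iff_map_eq_zero]
    intro y hy
    obtain ⟨x, hx⟩ := hco y
    have h1 := rel_aux hn g (fun j => b j) b.linearIndependent Finset.univ x (by
      rw [hx, map_sum] at hy
      simpa only [hf] using hy)
    rw [hx]
    exact Finset.sum_eq_zero fun j _ => by rw [h1 j (Finset.mem_univ j), TensorProduct.zero_tmul]
  have hfr : finrank K (D ⊗[K] L) = finrank K (Matrix (Fin n) (Fin n) L) := by
    rw [finrank_tensorProduct, hdeg, finrank_matrix, Fintype.card_fin]
    ring
  have hbij : Function.Bijective f :=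
    ⟨hinj, (LinearMap.injective_iff_surjective_of_finrank_eq_finrank (f := f.toLinearMap) hfr).mp
      hinj⟩
  refine ⟨AlgEquiv.ofBijective f hbij, fun c => ?_, fun d => ?_⟩
  · change f (1 ⊗ₜ c) = _
    rw [hf, map_one]
    ext i j
    rw [Matrix.smul_apply, Matrix.scalar_apply, Matrix.diagonal_apply, Matrix.one_apply]
    split_ifs <;> simp
  · change f (d ⊗ₜ 1) = _
    rw [hf, one_smul]

end Vale.Agent.P011.H132.Odd
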