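import Vale.Agent.P011.H132.Odd.RwB
import Vale.Agent.P011.H132.Odd.Theta
import Vale.Agent.P011.W.Defs

/-!
# Local homomorphisms vanish on the norms from a cyclic splitting field
-/

open Matrix TensorProduct Topology Filter Module

namespace Vale.Agent.P011.H132.Odd

open Vale.Agent.P011.H605.Odd

set_option linter.unusedSectionVars false

section gal

variable {K L : Type*} [Field K] [Field L] [Algebra K L] [FiniteDimensional K L] [IsGalois K L]
  {m : ℕ} (b : Module.Basis (Fin m) K L) {σ : L ≃ₐ[K] L}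
  (hσ : ∀ τ : L ≃ₐ[K] L, ∃ i, i < m ∧ τ = σ ^ i)

include b hσ

theorem pow_bij : Function.Bijective fun i : Fin m => σ ^ (i : ℕ) := by
  have hs : Function.Surjective fun i : Fin m => σ ^ (i : ℕ) := fun τ => by
    obtain ⟨i, hi, rfl⟩ := hσ τ
    exact ⟨⟨i, hi⟩, rfl⟩
  refine (Fintype.bijective_iff_surjective_and_card _).mpr ⟨hs, ?_⟩
  rw [Fintype.card_fin, ← Nat.card_eq_fintype_card, IsGalois.card_aut_eq_finrank,
    Module.finrank_eq_card_basis b, Fintype.card_fin]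

theorem m_pos : 0 < m := by
  by_contra h
  obtain ⟨i, hi, -⟩ := hσ 1
  omega

theorem pow_m : σ ^ m = 1 := by
  have hb := pow_bij b hσ
  obtain ⟨j, hj, h1⟩ := hσ (σ ^ m)
  by_cases h0 : j = 0
  · rw [h1, h0, pow_zero]
  · exfalso
    have h2 : σ ^ (m - j) = σ ^ 0 := by
      have h3 : σ ^ (m - j) * σ ^ j = σ ^ 0 * σ ^ j := by
        rw [← pow_add, ← pow_add, Nat.sub_add_cancel hj.le, zero_add]
        exact h1
      exact mul_right_cancel h3
    have h4 := hb.1 (a₁ := ⟨m - j, by omega⟩) (a₂ := ⟨0, m_pos b hσ⟩) h2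
    simp only [Fin.mk.injEq] at h4
    omega

theorem exists_trace_one : ∃ θ : L, ∑ k ∈ Finset.range m, (σ ^ k) θ = 1 := by
  obtain ⟨θ, hθ⟩ := Algebra.trace_surjective K L 1
  refine ⟨θ, ?_⟩
  have h1 := trace_eq_sum_automorphisms (K := K) θ
  rw [hθ, map_one] at h1
  rw [h1, Finset.sum_range]
  exact (pow_bij b hσ).sum_comp (fun τ : L ≃ₐ[K] L => τ θ)

end gal

section main

variable {K D L : Type} [Field K] [DivisionRing D] [Algebra K D] [Field L] [Algebra K L]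
  {m n : ℕ} (b : Module.Basis (Fin m) K L)
  (Θ : D ⊗[K] L ≃ₐ[K] Matrix (Fin n) (Fin n) L)
  (hΘ : ∀ c : L, Θ (1 ⊗ₜ c) = Matrix.scalar (Fin n) c)

/-- the norm of the determinant -/
theorem norm_det {F : Type} [Field F] [Algebra K F] (ι : F →ₐ[K] D) (y : Fin m → F)
    (hΘ : ∀ c : L, Θ (1 ⊗ₜ c) = Matrix.scalar (Fin n) c)
    (e : Fin m → (L ≃ₐ[K] L)) (he : Function.Injective e) :
    ∏ k, e k (Θ (∑ i, ι (y i) ⊗ₜ b i)).det
      = (Θ (ι ((∑ i, y i • (Algebra.leftMulMatrix b (b i)).map (algebraMap K F)).det) ⊗ₜ 1)).det := by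
  let j : F ⊗[K] L →ₐ[K] D ⊗[K] L := Algebra.TensorProduct.map ι (AlgHom.id K L)
  let δ : F ⊗[K] L →* L :=
    (Matrix.detMonoidHom (n := Fin n) (R := L)).comp
      (((Θ : D ⊗[K] L →ₐ[K] Matrix (Fin n) (Fin n) L).comp j : F ⊗[K] L →ₐ[K] _) : _ →* _)
  have hδ : ∀ w, δ w = (Θ (j w)).det := fun w => rfl
  have hj : ∀ (τ : L ≃ₐ[K] L) w, j (twF F τ w) = tw D τ (j w) := by
    intro τ w
    induction w using TensorProduct.induction_on with
    | zero => simp
    | add y z hy hz => rw [map_add, map_add, map_add, map_add, hy, hz]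
    | tmul x c => simp [j]
  have h1 : ∀ (τ : L ≃ₐ[K] L) w, δ (twF F τ w) = τ (δ w) := by
    intro τ w
    rw [hδ, hδ, hj]
    have h2 := det_sg Θ hΘ τ (Θ (j w))
    rw [sg_apply, AlgEquiv.symm_apply_apply] at h2
    exact h2
  have h2 := congrArg δ (nfm_prod b e he y)
  rw [map_prod, Finset.prod_congr rfl fun k _ => h1 (e k) _, hδ, hδ] at h2
  have h3 : j (∑ i, y i ⊗ₜ[K] b i) = ∑ i, ι (y i) ⊗ₜ[K] b i := by
    rw [map_sum]
    simp [j]
  have h4 : ∀ x : F, j (x ⊗ₜ[K] 1) = ι x ⊗ₜ[K] 1 := fun x => by simp [j]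
  rw [h3, h4] at h2
  exact h2

end main

/-- **Theorem**: a local homomorphism on `D` vanishes on the norms from `F ⊗ L` (`L` a cyclic
splitting field of `D`, `F` any subfield of `D`) which have reduced norm one and are norms of
elements near one. -/
theorem rw_cyc {K D L : Type} [Field K] [DivisionRing D] [Algebra K D] [FiniteDimensional K D]
    [Algebra.IsCentral K D] [Field L] [Algebra K L] [FiniteDimensional K L] [IsGalois K L]
    {E : Type*} [AddCommGroup E] [TopologicalSpace D] [IsTopologicalRing D] {O : Subring D}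
    {I : AddSubgroup D} {Ψ : D → E} (h : Rd O I Ψ) (hI : (I : Set D) ∈ 𝓝 0)
    (hK : ∀ U ∈ 𝓝 (0 : D), ∃ z : K, z ≠ 0 ∧ algebraMap K D z ∈ U)
    {n m : ℕ} (hn : 0 < n) (hdeg : finrank K D = n ^ 2) (b : Basis (Fin m) K L)
    (σ : L ≃ₐ[K] L) (hσ : ∀ τ : L ≃ₐ[K] L, ∃ i, i < m ∧ τ = σ ^ i)
    (hS : Nonempty (D →ₐ[K] Matrix (Fin n) (Fin n) L)) :
    ∃ U ∈ 𝓝 (0 : D), ∀ (F : Type) [Field F] [Algebra K F] (ι : F →ₐ[K] D) (y : Fin m → F) (u : F),
      (∑ i, y i • (Algebra.leftMulMatrix b (b i)).map (algebraMap K F)).det = u →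
      (∀ i, ι (y i) - algebraMap K D (b.repr 1 i) ∈ U) → W.HasNrd K n (ι u) 1 → Ψ (ι u) = 0 := by
  obtain ⟨g⟩ := hS
  obtain ⟨Θ, hΘ, hΘg⟩ := exists_theta hn hdeg g
  let tL : TopologicalSpace L := TopologicalSpace.induced (reg D b) inferInstance
  have hind : IsInducing (reg D b) := ⟨rfl⟩
  have hTR := topRing hind
  have hm := m_pos b hσ
  obtain ⟨z, hD⟩ := exists_dt (b := b) Θ h hI hK
  obtain ⟨θ, hθ⟩ := exists_trace_one b hσ
  set Y : (Fin m → D) → Matrix (Fin n) (Fin n) L := fun e => Θ (∑ i, e i ⊗ₜ b i) with hY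
  set e₀ : Fin m → D := fun i => algebraMap K D (b.repr 1 i) with he₀
  have hcY : Continuous Y := cont_Y Θ hΘ hind
  have hY0 : Y e₀ = 1 := by
    have h1 : ∑ i, e₀ i ⊗ₜ[K] b i = (1 : D) ⊗ₜ[K] (1 : L) := by
      conv_rhs => rw [← b.sum_repr (1 : L), TensorProduct.tmul_sum]
      refine Finset.sum_congr rfl fun i _ => ?_
      rw [he₀, TensorProduct.tmul_smul, TensorProduct.smul_tmul', Algebra.smul_def, mul_one]
    rw [hY]
    simp only [h1]
    exact map_one Θ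
  have hiL := iL_nhds (m := m) (b := b) Θ hΘ hind hI (algebraMap K D z)
  have E1 : ∀ᶠ e in 𝓝 e₀, Cg (iL (GG b Θ) (algebraMap K D z) I) (Y e) := by
    have h3 := mI_nhds (m := n) hiL
    have h4 : Tendsto (fun e => Y e - 1) (𝓝 e₀) (𝓝 0) := by
      have hc2 : Continuous fun e => Y e - 1 := hcY.sub continuous_const
      have := hc2.tendsto e₀
      simpa [hY0] using this
    exact h4 h3
  have E2 : ∀ᶠ e in 𝓝 e₀, ∏ j ∈ Finset.range m, (σ ^ j) (Y e).det = 1 →
      psiL (GG b Θ) Ψ ⟨0, hn⟩ (Y e).det = 0 := by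
    have h1 := ev_h90 Θ hΘ hind hI hK hD hm ⟨0, hn⟩ σ (pow_m b hσ) θ hθ
    have h2 : Tendsto (fun e => (Y e).det) (𝓝 e₀) (𝓝 1) := by
      have := (hcY.matrix_det).tendsto e₀
      rwa [hY0, Matrix.det_one] at this
    exact h2.eventually h1
  -- the neighbourhood
  have h5 : Tendsto (fun f : Fin m → D => e₀ + f) (𝓝 0) (𝓝 e₀) := by
    have : Continuous fun f : Fin m → D => e₀ + f := continuous_const.add continuous_id
    have := this.tendsto 0
    rwa [add_zero] at this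
  have h6 := h5.eventually (E1.and E2)
  rw [nhds_pi, Filter.Eventually, Filter.mem_pi] at h6
  obtain ⟨J, hJ, t, ht, hsub⟩ := h6
  refine ⟨⋂ i, t i, (Filter.iInter_mem).mpr fun i => ht i, ?_⟩
  intro F _ _ ι y u hu hy hN
  have h7 := hsub (a := fun i => ι (y i) - e₀ i) (fun i _ => Set.mem_iInter.mp (hy i) i)
  have h8 : (e₀ + fun i => ι (y i) - e₀ i) = fun i => ι (y i) := by
    funext i; simp
  rw [Set.mem_ofPred_eq, h8] at h7
  obtain ⟨e1, e2⟩ := h7
  have h9 := norm_det b Θ ι y hΘ (fun k : Fin m => σ ^ (k : ℕ)) (pow_bij b hσ).1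
  rw [hu, hΘg, hN L g, map_one] at h9
  rw [Finset.prod_range] at e2
  have h10 := e2 h9
  obtain ⟨f1, -, f3⟩ := hD.det hm ⟨0, hn⟩ e1
  rw [h10] at f3
  have h11 : GG b Θ (Y fun i => ι (y i))
      = (∑ i, y i • (Algebra.leftMulMatrix b (b i)).map (algebraMap K F)).map ι := by
    rw [GG_apply, hY]
    simp only [AlgEquiv.symm_apply_apply]
    exact xx_sum b ι y
  rw [h11] at f1 f3
  have h12 := (ps_det h (ι : F →+* D) _ f1).2
  have h13 := h12.symm.trans f3
  rw [hu] at h13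
  exact h13

end Vale.Agent.P011.H132.Odd
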