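import Vale.Agent.P011.H605.Odd.Dd

/-!
# Local homomorphisms: scaling, swap, conjugation by a fixed invertible matrix
-/

open Matrix

namespace Vale.Agent.P011.H132.Odd

open Vale.Agent.P011.H605.Odd

section vas

variable {R E : Type*} [Ring R] [AddCommGroup E]

/-- `1 + J` is a group and `F` is additive on it -/
structure Lh (J : AddSubgroup R) (F : R → E) : Prop where
  mul : ∀ x ∈ J, ∀ y ∈ J, x * y ∈ J
  inv : ∀ x ∈ J, ∃ y ∈ J, (1 + x) * (1 + y) = 1 ∧ (1 + y) * (1 + x) = 1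
  add : ∀ x ∈ J, ∀ y ∈ J, F ((1 + x) * (1 + y)) = F (1 + x) + F (1 + y)

variable {J : AddSubgroup R} {F : R → E}

theorem Lh.one (h : Lh J F) : F 1 = 0 := by
  have := h.add 0 J.zero_mem 0 J.zero_mem
  simpa using this

theorem Lh.add' (h : Lh J F) {u v : R} (hu : u - 1 ∈ J) (hv : v - 1 ∈ J) :
    F (u * v) = F u + F v := by
  have := h.add _ hu _ hv
  simpa using this

theorem Lh.mul' (h : Lh J F) {u v : R} (hu : u - 1 ∈ J) (hv : v - 1 ∈ J) : u * v - 1 ∈ J := by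
  have h1 := J.add_mem (J.add_mem hu hv) (h.mul _ hu _ hv)
  have : u * v - 1 = (u - 1) + (v - 1) + (u - 1) * (v - 1) := by noncomm_ring
  rw [this]; exact h1

/-- **the swap is formal** -/
theorem Lh.swap (h : Lh J F) {t w : R} (ht : t ∈ J) (hw : w ∈ J) :
    F (1 + t * w) = F (1 + w * t) := by
  obtain ⟨w', hw', h1, h2⟩ := h.inv w hw
  -- `p = (1 + w)⁻¹ (1 - t)`
  obtain ⟨p, hp, hpx⟩ : ∃ p : R, p - 1 ∈ J ∧ (1 + w') * (1 - t) = p :=
    ⟨_, by
      have : (1 + w') * (1 - t) - 1 = w' - t - w' * t := by noncomm_ring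
      rw [this]
      exact J.sub_mem (J.sub_mem hw' ht) (h.mul _ hw' _ ht), rfl⟩
  have hcp : (1 + w) * p = 1 - t := by rw [← hpx, ← mul_assoc, h1, one_mul]
  have hpw : p * w ∈ J := by
    have : p * w = (p - 1) * w + w := by noncomm_ring
    rw [this]; exact J.add_mem (h.mul _ hp _ hw) hw
  have hwp : w * p ∈ J := by
    have : w * p = w * (p - 1) + w := by noncomm_ring
    rw [this]; exact J.add_mem (h.mul _ hw _ hp) hw
  have e1 : 1 + t * w = (1 + w) * (1 + -(p * w)) := by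
    calc 1 + t * w = 1 + w - (1 - t) * w := by noncomm_ring
      _ = _ := by rw [← hcp]; noncomm_ring
  have e2 : 1 + w * t = (1 + w) * (1 + -(w * p)) := by
    calc 1 + w * t = 1 + w - w * (1 - t) := by noncomm_ring
      _ = _ := by rw [← hcp]; noncomm_ring
  have e3 : (1 + -(p * w)) * (1 + (p - 1)) = (1 + (p - 1)) * (1 + -(w * p)) := by noncomm_ring
  have f3 := congrArg F e3
  rw [h.add _ (J.neg_mem hpw) _ hp, h.add _ hp _ (J.neg_mem hwp)] at f3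
  rw [e1, e2, h.add _ hw _ (J.neg_mem hpw), h.add _ hw _ (J.neg_mem hwp)]
  have f4 : F (1 + -(p * w)) = F (1 + -(w * p)) := by
    rw [add_comm] at f3
    exact add_left_cancel f3
  rw [f4]

end vas

section sc

variable {D E : Type*} [DivisionRing D] [AddCommGroup E]

/-- the multiple `z I` -/
def zI (z : D) (I : AddSubgroup D) : AddSubgroup D := I.comap (AddMonoidHom.mulLeft z⁻¹)

theorem mem_zI {z : D} {I : AddSubgroup D} {x : D} : x ∈ zI z I ↔ z⁻¹ * x ∈ I := Iff.rfl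

variable {O : Subring D} {I : AddSubgroup D} {Ψ : D → E}

theorem zI_le (h : Rd O I Ψ) {z : D} (hz : z ≠ 0) (hzO : z ∈ O) {x : D} (hx : x ∈ zI z I) :
    x ∈ I := by
  have := h.mul_left _ hzO _ (mem_zI.mp hx)
  rwa [mul_inv_cancel_left₀ hz] at this

theorem _root_.Vale.Agent.P011.H605.Odd.Rd.sc (h : Rd O I Ψ) {z : D} (hz : z ≠ 0) (hzO : z ∈ O)
    (hc : ∀ x, z * x = x * z) : Rd O (zI z I) Ψ := by
  have hc' : ∀ x, z⁻¹ * x = x * z⁻¹ := fun x => by
    have := hc x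
    calc z⁻¹ * x = z⁻¹ * (x * z) * z⁻¹ := by rw [mul_assoc, mul_assoc, mul_inv_cancel₀ hz, mul_one]
      _ = z⁻¹ * (z * x) * z⁻¹ := by rw [this]
      _ = _ := by rw [inv_mul_cancel_left₀ hz]
  have hle : ∀ x ∈ zI z I, x ∈ I := fun x hx => zI_le h hz hzO hx
  refine ⟨fun x hx => h.le _ (hle x hx), fun a ha x hx => ?_, fun x hx a ha => ?_,
    fun x hx => h.ne _ (hle x hx), fun x hx => ?_, fun x hx y hy => h.add _ (hle x hx) _ (hle y hy),
    fun x hx y hy => h.comm _ (hle x hx) _ hy⟩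
  · rw [mem_zI] at hx ⊢
    rw [← mul_assoc, hc', mul_assoc]
    exact h.mul_left _ ha _ hx
  · rw [mem_zI] at hx ⊢
    rw [← mul_assoc]
    exact h.mul_right _ hx _ ha
  · have h0 := h.ne _ (hle x hx)
    have e : (1 + x)⁻¹ - 1 = -(x * (1 + x)⁻¹) := by
      have : (1 : D) = (1 + x) * (1 + x)⁻¹ := (mul_inv_cancel₀ h0).symm
      calc (1 + x)⁻¹ - 1 = (1 + x)⁻¹ - (1 + x) * (1 + x)⁻¹ := by rw [← this]
        _ = _ := by noncomm_ring
    rw [mem_zI, e, mul_neg, ← mul_assoc]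
    refine I.neg_mem (h.mul_right _ (mem_zI.mp hx) _ ?_)
    have := O.add_mem (h.le _ (h.inv _ (hle x hx))) O.one_mem
    simpa using this

theorem _root_.Vale.Agent.P011.H605.Odd.R1.inv (h : Rd O I Ψ) {m : ℕ}
    {X : Matrix (Fin m) (Fin m) D} (hX : R1 O I X) : ∃ Y, R1 O I Y ∧ X * Y = 1 ∧ Y * X = 1 := by
  obtain ⟨c, b, hcb, rfl⟩ := hX
  have hd : b ⬝ᵥ c ∈ I := hcb.dot h
  have h0 : 1 + b ⬝ᵥ c ≠ 0 := h.ne _ hd
  have hO : -(1 + b ⬝ᵥ c)⁻¹ ∈ O := O.neg_mem (h.memO (h.inv _ hd))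
  have h2 : vecMulVec c b * vecMulVec (fun i => c i * -(1 + b ⬝ᵥ c)⁻¹) b
      = vecMulVec (fun i => c i * ((b ⬝ᵥ c) * -(1 + b ⬝ᵥ c)⁻¹)) b := by
    ext i j
    rw [Matrix.mul_apply]
    simp only [vecMulVec_apply, dotProduct, Finset.mul_sum, Finset.sum_mul]
    refine Finset.sum_congr rfl fun k _ => ?_
    noncomm_ring
  have h3 : vecMulVec (fun i => c i * -(1 + b ⬝ᵥ c)⁻¹) b * vecMulVec c b
      = vecMulVec (fun i => c i * (-(1 + b ⬝ᵥ c)⁻¹ * (b ⬝ᵥ c))) b := by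
    ext i j
    rw [Matrix.mul_apply]
    simp only [vecMulVec_apply, dotProduct, Finset.mul_sum, Finset.sum_mul]
    refine Finset.sum_congr rfl fun k _ => ?_
    noncomm_ring
  refine ⟨1 + vecMulVec (fun i => c i * -(1 + b ⬝ᵥ c)⁻¹) b, ⟨_, b, ?_, rfl⟩, ?_, ?_⟩
  · rcases hcb with ⟨hc, hb⟩ | ⟨hc, hb⟩
    · exact Or.inl ⟨fun i => h.mul_right _ (hc i) _ hO, hb⟩
    · exact Or.inr ⟨fun i => O.mul_mem (hc i) hO, hb⟩
  · rw [add_mul, mul_add, mul_add, h2, mul_one, mul_one, one_mul]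
    ext i j
    simp only [Matrix.add_apply, vecMulVec_apply]
    have e : -(1 + b ⬝ᵥ c)⁻¹ + 1 + (b ⬝ᵥ c) * -(1 + b ⬝ᵥ c)⁻¹ = 0 := by
      have := mul_inv_cancel₀ h0
      calc -(1 + b ⬝ᵥ c)⁻¹ + 1 + (b ⬝ᵥ c) * -(1 + b ⬝ᵥ c)⁻¹
          = 1 - (1 + b ⬝ᵥ c) * (1 + b ⬝ᵥ c)⁻¹ := by noncomm_ring
        _ = 0 := by rw [this, sub_self]
    have : c i * -(1 + b ⬝ᵥ c)⁻¹ * b j + (c i * b j + c i * (b ⬝ᵥ c * -(1 + b ⬝ᵥ c)⁻¹) * b j)
        = c i * (-(1 + b ⬝ᵥ c)⁻¹ + 1 + (b ⬝ᵥ c) * -(1 + b ⬝ᵥ c)⁻¹) * b j := by noncomm_ring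
    rw [add_assoc, this, e, mul_zero, zero_mul, add_zero]
  · rw [add_mul, mul_add, mul_add, h3, mul_one, mul_one, one_mul]
    ext i j
    simp only [Matrix.add_apply, vecMulVec_apply]
    have e : 1 + -(1 + b ⬝ᵥ c)⁻¹ + -(1 + b ⬝ᵥ c)⁻¹ * (b ⬝ᵥ c) = 0 := by
      have := inv_mul_cancel₀ h0
      calc 1 + -(1 + b ⬝ᵥ c)⁻¹ + -(1 + b ⬝ᵥ c)⁻¹ * (b ⬝ᵥ c)
          = 1 - (1 + b ⬝ᵥ c)⁻¹ * (1 + b ⬝ᵥ c) := by noncomm_ring
        _ = 0 := by rw [this, sub_self]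
    have : c i * b j + (c i * -(1 + b ⬝ᵥ c)⁻¹ * b j + c i * (-(1 + b ⬝ᵥ c)⁻¹ * b ⬝ᵥ c) * b j)
        = c i * (1 + -(1 + b ⬝ᵥ c)⁻¹ + -(1 + b ⬝ᵥ c)⁻¹ * (b ⬝ᵥ c)) * b j := by noncomm_ring
    rw [add_assoc, this, e, mul_zero, zero_mul, add_zero]

theorem _root_.Vale.Agent.P011.H605.Odd.Cg.inv (h : Rd O I Ψ) {m : ℕ}
    {X : Matrix (Fin m) (Fin m) D} (hX : Cg I X) : ∃ Y, Cg I Y ∧ X * Y = 1 ∧ Y * X = 1 := by
  obtain ⟨l, hl, rfl⟩ := exists_list h m X hX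
  clear hX
  induction l with
  | nil => exact ⟨1, cg_one, by simp, by simp⟩
  | cons a l ih =>
    obtain ⟨Y, h1, h2, h3⟩ := ih fun Z hZ => hl Z (List.mem_cons_of_mem _ hZ)
    obtain ⟨A, g1, g2, g3⟩ := (hl a List.mem_cons_self).inv h
    refine ⟨Y * A, h1.mul h (g1.cg h), ?_, ?_⟩
    · rw [List.prod_cons]
      calc a * l.prod * (Y * A) = a * (l.prod * Y) * A := by noncomm_ring
        _ = 1 := by rw [h2, mul_one, g2]
    · rw [List.prod_cons]
      calc Y * A * (a * l.prod) = Y * (A * a) * l.prod := by noncomm_ring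
        _ = 1 := by rw [g3, mul_one, h3]

/-- the pivot sum is a local homomorphism -/
theorem lh_ps (h : Rd O I Ψ) (m : ℕ) {M : AddSubgroup (Matrix (Fin m) (Fin m) D)}
    (hM : ∀ x, x ∈ M ↔ ∀ i j, x i j ∈ I) : Lh M (ps Ψ m) := by
  have hcg : ∀ x, x ∈ M ↔ Cg I (1 + x) := fun x => by
    rw [hM, Cg, add_sub_cancel_left]
  refine ⟨fun x hx y hy => ?_, fun x hx => ?_, fun x hx y hy => ?_⟩
  · rw [hM] at hx hy ⊢
    intro i j
    rw [Matrix.mul_apply]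
    exact I.sum_mem fun k _ => h.mul_left _ (h.le _ (hx i k)) _ (hy k j)
  · obtain ⟨Y, h1, h2, h3⟩ := ((hcg x).mp hx).inv h
    refine ⟨Y - 1, ?_, ?_, ?_⟩
    · rw [hM]; exact h1
    · rw [add_sub_cancel, h2]
    · rw [add_sub_cancel, h3]
  · exact ps_mul h m _ _ ((hcg x).mp hx) ((hcg y).mp hy)

/-- **conjugation by a fixed invertible matrix** -/
theorem ps_conj_any (h : Rd O I Ψ) {z : D} (hz : z ≠ 0) (hzO : z ∈ O) (hc : ∀ x, z * x = x * z)
    {m : ℕ} (k k' : Matrix (Fin m) (Fin m) D) (hkk : k' * k = 1)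
    (hk : ∀ i j, z * k i j ∈ O) (hk' : ∀ i j, z * k' i j ∈ O) (X : Matrix (Fin m) (Fin m) D)
    (hX : Cg (zI (z * z) I) X) : Cg I (k * X * k') ∧ ps Ψ m (k * X * k') = ps Ψ m X := by
  have hkk' : k * k' = 1 := mul_eq_one_comm.mp hkk
  have hzz : z * z ≠ 0 := mul_ne_zero hz hz
  have hcc : ∀ x, z * z * x = x * (z * z) := fun x => by
    rw [mul_assoc, hc x, ← mul_assoc, hc x, mul_assoc]
  have hci : ∀ x, z⁻¹ * x = x * z⁻¹ := fun x => by
    have := hc x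
    calc z⁻¹ * x = z⁻¹ * (x * z) * z⁻¹ := by rw [mul_assoc, mul_assoc, mul_inv_cancel₀ hz, mul_one]
      _ = z⁻¹ * (z * x) * z⁻¹ := by rw [this]
      _ = _ := by rw [inv_mul_cancel_left₀ hz]
  have h' := h.sc hzz (O.mul_mem hzO hzO) hcc
  obtain ⟨l, hl, rfl⟩ := exists_list h' m X hX
  have e : k * l.prod * k' = (l.map fun Y => k * Y * k').prod := by
    clear hl hX
    induction l with
    | nil => simp [hkk']
    | cons a l ih =>
      rw [List.prod_cons, List.map_cons, List.prod_cons, ← ih]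
      calc k * (a * l.prod) * k' = k * a * 1 * l.prod * k' := by noncomm_ring
        _ = k * a * k' * (k * l.prod * k') := by rw [← hkk]; noncomm_ring
  have h1 : ∀ Y ∈ l, R1 O I (k * Y * k') ∧ ps Ψ m (k * Y * k') = ps Ψ m Y := by
    intro Y hY
    obtain ⟨c, b, hcb, rfl⟩ := hl Y hY
    have e1 : k * (1 + vecMulVec c b) * k' = 1 + vecMulVec (k *ᵥ c) (b ᵥ* k') := by
      rw [mul_add, add_mul, mul_one, hkk', Matrix.mul_vecMulVec, Matrix.vecMulVec_mul]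
    -- rescale
    have key : ∀ c' b' : Fin m → D, CB O I c' b' →
        vecMulVec (k *ᵥ c) (b ᵥ* k') = vecMulVec c' b' →
        b' ⬝ᵥ c' = (b ᵥ* k') ⬝ᵥ (k *ᵥ c) →
        R1 O I (k * (1 + vecMulVec c b) * k') ∧
          ps Ψ m (k * (1 + vecMulVec c b) * k') = ps Ψ m (1 + vecMulVec c b) := by
      intro c' b' hcb' e2 e4
      refine ⟨⟨_, _, hcb', by rw [e1, e2]⟩, ?_⟩
      rw [e1, e2, ps_rank1 h m _ _ hcb', ps_rank1 h' m _ _ hcb, e4,
        ← Matrix.dotProduct_mulVec, Matrix.mulVec_mulVec, hkk, Matrix.one_mulVec]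
    rcases hcb with ⟨hc1, hb⟩ | ⟨hc1, hb⟩
    · refine key (fun i => (k *ᵥ c) i * z⁻¹) (fun j => z * (b ᵥ* k') j)
        (Or.inl ⟨fun i => ?_, fun j => ?_⟩) ?_ ?_
      · change (∑ j, k i j * c j) * z⁻¹ ∈ I
        rw [Finset.sum_mul]
        refine I.sum_mem fun j _ => ?_
        have e3 : k i j * c j * z⁻¹ = z * k i j * ((z * z)⁻¹ * c j) := by
          rw [_root_.mul_inv_rev, hc (k i j)]
          calc k i j * c j * z⁻¹ = k i j * (z⁻¹ * c j) := by rw [mul_assoc, ← hci]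
            _ = k i j * ((z * z⁻¹) * z⁻¹ * c j) := by rw [mul_inv_cancel₀ hz, one_mul]
            _ = _ := by noncomm_ring
        rw [e3]
        exact h.mul_left _ (hk i j) _ (mem_zI.mp (hc1 j))
      · change z * (∑ i, b i * k' i j) ∈ O
        rw [Finset.mul_sum]
        refine O.sum_mem fun i _ => ?_
        have e3 : z * (b i * k' i j) = b i * (z * k' i j) := by
          rw [← mul_assoc, hc (b i), mul_assoc]
        rw [e3]
        exact O.mul_mem (hb i) (hk' i j)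
      · ext i j
        rw [vecMulVec_apply, vecMulVec_apply, mul_assoc, inv_mul_cancel_left₀ hz]
      · rw [dotProduct, dotProduct]
        refine Finset.sum_congr rfl fun i _ => ?_
        rw [mul_assoc, hc, mul_assoc, mul_assoc, inv_mul_cancel₀ hz, mul_one]
    · refine key (fun i => z * (k *ᵥ c) i) (fun j => z⁻¹ * (b ᵥ* k') j)
        (Or.inr ⟨fun i => ?_, fun j => ?_⟩) ?_ ?_
      · change z * (∑ j, k i j * c j) ∈ O
        rw [Finset.mul_sum]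
        refine O.sum_mem fun j _ => ?_
        rw [← mul_assoc]
        exact O.mul_mem (hk i j) (hc1 j)
      · change z⁻¹ * (∑ i, b i * k' i j) ∈ I
        rw [Finset.mul_sum]
        refine I.sum_mem fun i _ => ?_
        have e3 : z⁻¹ * (b i * k' i j) = (z * z)⁻¹ * b i * (z * k' i j) := by
          rw [_root_.mul_inv_rev]
          calc z⁻¹ * (b i * k' i j) = z⁻¹ * (z⁻¹ * z) * (b i * k' i j) := by
                rw [inv_mul_cancel₀ hz, mul_one]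
            _ = z⁻¹ * z⁻¹ * (z * b i) * k' i j := by noncomm_ring
            _ = _ := by rw [hc]; noncomm_ring
        rw [e3]
        exact h.mul_right _ (mem_zI.mp (hb i)) _ (hk' i j)
      · ext i j
        rw [vecMulVec_apply, vecMulVec_apply, ← mul_assoc, hc, mul_assoc _ z z⁻¹,
          mul_inv_cancel₀ hz, mul_one]
      · rw [dotProduct, dotProduct]
        refine Finset.sum_congr rfl fun i _ => ?_
        rw [hc, ← mul_assoc, hci, mul_assoc _ z⁻¹, mul_assoc, mul_assoc]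
        rw [show z⁻¹ * ((k *ᵥ c) i * z) = (k *ᵥ c) i from by
          rw [← hc, inv_mul_cancel_left₀ hz]]
  have h2 := cg_list h (l.map fun Y => k * Y * k') (by
    intro Z hZ
    obtain ⟨Y, hY, rfl⟩ := List.mem_map.mp hZ
    exact (h1 Y hY).1.cg h)
  rw [e]
  refine ⟨h2.1, ?_⟩
  rw [h2.2, (cg_list h' l fun Y hY => (hl Y hY).cg h').2, List.map_map]
  congr 1
  exact List.map_congr_left fun Y hY => (h1 Y hY).2

end sc

end Vale.Agent.P011.H132.Odd
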