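import Vale.Agent.P011.H132.Odd.Sc

open Matrix

namespace Vale.Agent.P011.H132.Odd

open Vale.Agent.P011.H605.Odd

section ta

variable {D E L : Type*} [DivisionRing D] [AddCommGroup E] [Field L] {m n : ℕ}
variable {O : Subring D} {I : AddSubgroup D} {Ψ : D → E}

/-- matrices with entries in `I` -/
def mI (m : ℕ) (I : AddSubgroup D) : AddSubgroup (Matrix (Fin m) (Fin m) D) where
  carrier := {x | ∀ i j, x i j ∈ I}
  add_mem' hx hy i j := I.add_mem (hx i j) (hy i j)
  zero_mem' _ _ := I.zero_mem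
  neg_mem' hx i j := I.neg_mem (hx i j)

theorem mem_mI {x : Matrix (Fin m) (Fin m) D} : x ∈ mI m I ↔ ∀ i j, x i j ∈ I := Iff.rfl

/-- matrices with entries in `O` -/
def mO (m : ℕ) (O : Subring D) : Subring (Matrix (Fin m) (Fin m) D) where
  carrier := {x | ∀ i j, x i j ∈ O}
  mul_mem' {x y} hx hy i j := by
    rw [Matrix.mul_apply]
    exact O.sum_mem fun k _ => O.mul_mem (hx i k) (hy k j)
  one_mem' i j := by
    by_cases h : i = j
    · subst h; simp [O.one_mem]
    · simp [Matrix.one_apply_ne h, O.zero_mem]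
  add_mem' hx hy i j := O.add_mem (hx i j) (hy i j)
  zero_mem' _ _ := O.zero_mem
  neg_mem' hx i j := O.neg_mem (hx i j)

theorem mem_mO {x : Matrix (Fin m) (Fin m) D} : x ∈ mO m O ↔ ∀ i j, x i j ∈ O := Iff.rfl

theorem mOI (h : Rd O I Ψ) {x y : Matrix (Fin m) (Fin m) D} (hx : x ∈ mO m O)
    (hy : y ∈ mI m I) : x * y ∈ mI m I := fun i j => by
  rw [Matrix.mul_apply]
  exact I.sum_mem fun k _ => h.mul_left _ (hx i k) _ (hy k j)

theorem mIO (h : Rd O I Ψ) {x y : Matrix (Fin m) (Fin m) D} (hx : x ∈ mI m I)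
    (hy : y ∈ mO m O) : x * y ∈ mI m I := fun i j => by
  rw [Matrix.mul_apply]
  exact I.sum_mem fun k _ => h.mul_right _ (hx i k) _ (hy k j)

theorem mI_le (h : Rd O I Ψ) {x : Matrix (Fin m) (Fin m) D} (hx : x ∈ mI m I) :
    x ∈ mO m O := fun i j => h.le _ (hx i j)

theorem mII (h : Rd O I Ψ) {x y : Matrix (Fin m) (Fin m) D} (hx : x ∈ mI m I)
    (hy : y ∈ mI m I) : x * y ∈ mI m I := mOI h (mI_le h hx) hy

theorem cg_iff {x : Matrix (Fin m) (Fin m) D} : Cg I x ↔ x - 1 ∈ mI m I := Iff.rfl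

variable (G : Matrix (Fin n) (Fin n) L →+* Matrix (Fin m) (Fin m) D)

/-- integral elements of `L` -/
def oL (O : Subring D) : Subring L := (mO m O).comap (G.comp (Matrix.scalar (Fin n)))

/-- small elements of `L` -/
def iL (z : D) (I : AddSubgroup D) : AddSubgroup L :=
  (mI m (zI (z * z) I)).comap (G.comp (Matrix.scalar (Fin n))).toAddMonoidHom

/-- the local character of `L` -/
noncomputable def psiL (Ψ : D → E) (i₀ : Fin n) (μ : L) : E :=
  ps Ψ m (G (1 + Matrix.single i₀ i₀ (μ - 1)))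

theorem mem_oL {c : L} : c ∈ oL G O ↔ G (Matrix.scalar (Fin n) c) ∈ mO m O := Iff.rfl

theorem mem_iL {z : D} {c : L} :
    c ∈ iL G z I ↔ G (Matrix.scalar (Fin n) c) ∈ mI m (zI (z * z) I) := Iff.rfl

variable {G}

/-- the data -/
structure Dt (O : Subring D) (I : AddSubgroup D) (Ψ : D → E) (z : D)
    (G : Matrix (Fin n) (Fin n) L →+* Matrix (Fin m) (Fin m) D) : Prop where
  rd : Rd O I Ψ
  ne : z ≠ 0
  mem : z ∈ O
  cen : ∀ x, z * x = x * z
  unit : ∀ i j k l, z * G (Matrix.single i j 1) k l ∈ I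

variable {z : D} (hD : Dt O I Ψ z G)
include hD

theorem Dt.cen' (x : D) : z⁻¹ * x = x * z⁻¹ := by
  have := hD.cen x
  calc z⁻¹ * x = z⁻¹ * (x * z) * z⁻¹ := by
        rw [mul_assoc, mul_assoc, mul_inv_cancel₀ hD.ne, mul_one]
    _ = z⁻¹ * (z * x) * z⁻¹ := by rw [this]
    _ = _ := by rw [inv_mul_cancel_left₀ hD.ne]

theorem Dt.zz : z * z ≠ 0 := mul_ne_zero hD.ne hD.ne

theorem Dt.rd2 : Rd O (zI (z * z) I) Ψ :=
  hD.rd.sc hD.zz (O.mul_mem hD.mem hD.mem) fun x => by
    rw [mul_assoc, hD.cen x, ← mul_assoc, hD.cen x, mul_assoc]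

/-- small times unit matrix, divided by `z` -/
theorem Dt.smallI {c : L} (hc : c ∈ iL G z I) (i j : Fin n) (a b : Fin m) :
    z⁻¹ * (G (Matrix.single i j c)) a b ∈ I := by
  have e : Matrix.single i j c = Matrix.scalar (Fin n) c * Matrix.single i j 1 := by
    ext a b
    rw [Matrix.scalar_apply, Matrix.diagonal_mul]
    simp [Matrix.single_apply]
  rw [e, map_mul, Matrix.mul_apply, Finset.mul_sum]
  refine I.sum_mem fun k _ => ?_
  have h1 : (z * z)⁻¹ * G (Matrix.scalar (Fin n) c) a k ∈ I := hc a k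
  have h2 := hD.unit i j k b
  have e2 : z⁻¹ * (G (Matrix.scalar (Fin n) c) a k * G (Matrix.single i j 1) k b)
      = ((z * z)⁻¹ * G (Matrix.scalar (Fin n) c) a k) * (z * G (Matrix.single i j 1) k b) := by
    rw [_root_.mul_inv_rev]
    calc z⁻¹ * (G (Matrix.scalar (Fin n) c) a k * G (Matrix.single i j 1) k b)
        = z⁻¹ * (z⁻¹ * z) * (G (Matrix.scalar (Fin n) c) a k * G (Matrix.single i j 1) k b) := by
          rw [inv_mul_cancel₀ hD.ne, mul_one]
      _ = z⁻¹ * z⁻¹ * (z * G (Matrix.scalar (Fin n) c) a k) * G (Matrix.single i j 1) k b := by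
          noncomm_ring
      _ = _ := by rw [hD.cen]; noncomm_ring
  rw [e2]
  exact hD.rd.mul_left _ (hD.rd.le _ h1) _ h2

theorem Dt.smallO {c : L} (hc : c ∈ oL G O) (i j : Fin n) (a b : Fin m) :
    z * (G (Matrix.single i j c)) a b ∈ I := by
  have e : Matrix.single i j c = Matrix.scalar (Fin n) c * Matrix.single i j 1 := by
    ext a b
    rw [Matrix.scalar_apply, Matrix.diagonal_mul]
    simp [Matrix.single_apply]
  rw [e, map_mul, Matrix.mul_apply, Finset.mul_sum]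
  refine I.sum_mem fun k _ => ?_
  have h1 : G (Matrix.scalar (Fin n) c) a k ∈ O := hc a k
  rw [← mul_assoc, hD.cen, mul_assoc]
  exact hD.rd.mul_left _ h1 _ (hD.unit i j k b)

theorem Dt.iL_le {c : L} (hc : c ∈ iL G z I) : c ∈ oL G O := fun i j =>
  hD.rd2.le _ (hc i j)

/-- the restriction of the local character to the field `L` -/
theorem Dt.rdL (hm : 0 < m) (i₀ : Fin n) : Rd (oL G O) (iL G z I) (psiL G Ψ i₀) := by
  have hmul : ∀ a ∈ oL G O, ∀ x ∈ iL G z I, a * x ∈ iL G z I := fun a ha x hx => by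
    rw [mem_iL, map_mul, map_mul]
    exact mOI hD.rd2 ha hx
  refine ⟨fun x hx => hD.iL_le hx, hmul, fun x hx a ha => by rw [mul_comm]; exact hmul a ha x hx,
    fun x hx e => ?_, fun x hx => ?_, fun x hx y hy => ?_, fun x hx y hy => by rw [mul_comm]⟩
  · -- `1 + x ≠ 0`
    have h1 := hx ⟨0, hm⟩ ⟨0, hm⟩
    refine hD.rd2.ne _ h1 ?_
    have h2 : G (Matrix.scalar (Fin n) (1 + x)) = 0 := by rw [e, map_zero, map_zero]
    rw [map_add, map_add, map_one, map_one] at h2
    have h3 := congrFun (congrFun h2 ⟨0, hm⟩) ⟨0, hm⟩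
    rw [Matrix.add_apply, Matrix.one_apply_eq, Matrix.zero_apply] at h3
    exact h3
  · have h0 : 1 + x ≠ 0 := by
      intro e
      have h1 := hx ⟨0, hm⟩ ⟨0, hm⟩
      refine hD.rd2.ne _ h1 ?_
      have h2 : G (Matrix.scalar (Fin n) (1 + x)) = 0 := by rw [e, map_zero, map_zero]
      rw [map_add, map_add, map_one, map_one] at h2
      have h3 := congrFun (congrFun h2 ⟨0, hm⟩) ⟨0, hm⟩
      rw [Matrix.add_apply, Matrix.one_apply_eq, Matrix.zero_apply] at h3
      exact h3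
    have hX : Cg (zI (z * z) I) (1 + G (Matrix.scalar (Fin n) x)) := by
      rw [cg_iff, add_sub_cancel_left]; exact hx
    obtain ⟨Y, h1, h2, h3⟩ := hX.inv hD.rd2
    have h4 : G (Matrix.scalar (Fin n) (1 + x)⁻¹) = Y := by
      have h5 : (1 + G (Matrix.scalar (Fin n) x)) * G (Matrix.scalar (Fin n) (1 + x)⁻¹) = 1 := by
        rw [← map_one G, ← map_one (Matrix.scalar (Fin n)), ← map_add, ← map_add, ← map_mul,
          ← map_mul, mul_inv_cancel₀ h0]
      calc G (Matrix.scalar (Fin n) (1 + x)⁻¹)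
          = Y * (1 + G (Matrix.scalar (Fin n) x)) * G (Matrix.scalar (Fin n) (1 + x)⁻¹) := by
            rw [h3, one_mul]
        _ = Y := by rw [mul_assoc, h5, mul_one]
    rw [mem_iL, map_sub, map_sub, map_one, map_one, h4]
    exact h1
  · have hs : ∀ x ∈ iL G z I, G (Matrix.single i₀ i₀ x) ∈ mI m I := fun x hx i j => by
      have h1 := hD.smallI hx i₀ i₀ i j
      have h2 := hD.rd.mul_left _ hD.mem _ h1
      rwa [mul_inv_cancel_left₀ hD.ne] at h2
    have hl := lh_ps hD.rd m (M := mI m I) (fun x => Iff.rfl)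
    have e1 : 1 + Matrix.single i₀ i₀ ((1 + x) * (1 + y) - 1)
        = (1 + Matrix.single i₀ i₀ x) * (1 + Matrix.single i₀ i₀ y) := by
      rw [show (1 + x) * (1 + y) - 1 = x + y + x * y by ring, Matrix.single_add,
        Matrix.single_add, ← Matrix.single_mul_single_same x i₀ i₀ i₀ y]
      noncomm_ring
    rw [psiL, psiL, psiL, e1, map_mul, add_sub_cancel_left, add_sub_cancel_left, map_add, map_add,
      map_one]
    exact hl.add _ (hs x hx) _ (hs y hy)

omit hD in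
theorem vec_eq (c b : Fin n → L) (i₀ : Fin n) :
    vecMulVec c b = (∑ i, Matrix.single i i₀ (c i)) * (∑ j, Matrix.single i₀ j (b j)) := by
  ext i j
  rw [Matrix.mul_apply, Finset.sum_eq_single i₀]
  · rw [Matrix.sum_apply, Matrix.sum_apply, Finset.sum_eq_single i, Finset.sum_eq_single j]
    · simp [vecMulVec_apply]
    · intro b _ hb; simp [hb]
    · simp
    · intro b _ hb; simp [hb]
    · simp
  · intro b _ hb
    rw [Matrix.sum_apply]
    have : ∑ i', (Matrix.single i' i₀ (c i') : Matrix (Fin n) (Fin n) L) i b = 0 :=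
      Finset.sum_eq_zero fun k _ => by simp [Ne.symm hb]
    rw [this, zero_mul]
  · simp

omit hD in
theorem vec_eq' (c b : Fin n → L) (i₀ : Fin n) :
    (∑ j, Matrix.single i₀ j (b j)) * (∑ i, Matrix.single i i₀ (c i))
      = Matrix.single i₀ i₀ (b ⬝ᵥ c) := by
  rw [Finset.sum_mul, dotProduct]
  have : ∀ j, Matrix.single i₀ j (b j) * ∑ i, Matrix.single i i₀ (c i)
      = Matrix.single i₀ i₀ (b j * c j) := by
    intro j
    rw [Finset.mul_sum, Finset.sum_eq_single j]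
    · rw [Matrix.single_mul_single_same]
    · intro k _ hk
      rw [Matrix.single_mul_single_of_ne _ _ _ _ (Ne.symm hk)]
    · simp
  rw [Finset.sum_congr rfl fun j _ => this j]
  exact (map_sum (Matrix.singleAddMonoidHom (α := L) i₀ i₀) (fun j => b j * c j) Finset.univ).symm

/-- rank one elements -/
theorem Dt.rank1 (i₀ : Fin n) {c b : Fin n → L} (hcb : CB (oL G O) (iL G z I) c b) :
    Cg I (G (1 + vecMulVec c b)) ∧
      ps Ψ m (G (1 + vecMulVec c b)) = psiL G Ψ i₀ (1 + b ⬝ᵥ c) := by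
  have hl := lh_ps hD.rd m (M := mI m I) (fun x => Iff.rfl)
  set A : Matrix (Fin m) (Fin m) D := G (∑ i, Matrix.single i i₀ (c i)) with hA
  set B : Matrix (Fin m) (Fin m) D := G (∑ j, Matrix.single i₀ j (b j)) with hB
  have hAB : G (vecMulVec c b) = A * B := by rw [vec_eq c b i₀, map_mul]
  have hBA : G (Matrix.single i₀ i₀ (b ⬝ᵥ c)) = B * A := by rw [← vec_eq' c b i₀, map_mul]
  -- scalar matrices
  have hsc : ∀ (t : D) (X : Matrix (Fin m) (Fin m) D) (a b : Fin m),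
      (Matrix.scalar (Fin m) t * X) a b = t * X a b := fun t X a b => by
    rw [Matrix.scalar_apply, Matrix.diagonal_mul]
  have hZ : ∀ X : Matrix (Fin m) (Fin m) D,
      Matrix.scalar (Fin m) z * X = X * Matrix.scalar (Fin m) z := fun X => by
    ext a b
    rw [hsc, Matrix.scalar_apply, Matrix.mul_diagonal, hD.cen]
  have hZi : Matrix.scalar (Fin m) z * Matrix.scalar (Fin m) z⁻¹ = 1 := by
    rw [← map_mul, mul_inv_cancel₀ hD.ne, map_one]
  have hZi' : Matrix.scalar (Fin m) z⁻¹ * Matrix.scalar (Fin m) z = 1 := by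
    rw [← map_mul, inv_mul_cancel₀ hD.ne, map_one]
  have hZ' : ∀ X : Matrix (Fin m) (Fin m) D,
      Matrix.scalar (Fin m) z⁻¹ * X = X * Matrix.scalar (Fin m) z⁻¹ := fun X => by
    ext a b
    rw [hsc, Matrix.scalar_apply, Matrix.mul_diagonal, hD.cen']
  have main : ∀ A' B' : Matrix (Fin m) (Fin m) D, A' ∈ mI m I → B' ∈ mI m I →
      A' * B' = A * B → B' * A' = B * A →
      Cg I (G (1 + vecMulVec c b)) ∧
        ps Ψ m (G (1 + vecMulVec c b)) = psiL G Ψ i₀ (1 + b ⬝ᵥ c) := by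
    intro A' B' hA' hB' h1 h2
    rw [map_add, map_one, hAB, psiL, map_add, map_one, add_sub_cancel_left, hBA, ← h1, ← h2]
    refine ⟨?_, hl.swap hA' hB'⟩
    rw [cg_iff, add_sub_cancel_left]
    exact hl.mul _ hA' _ hB'
  rcases hcb with ⟨hc, hb⟩ | ⟨hc, hb⟩
  · refine main (Matrix.scalar (Fin m) z⁻¹ * A) (Matrix.scalar (Fin m) z * B) ?_ ?_ ?_ ?_
    · intro i j
      rw [hsc, hA, map_sum, Matrix.sum_apply, Finset.mul_sum]
      exact I.sum_mem fun k _ => hD.smallI (hc k) _ _ _ _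
    · intro i j
      rw [hsc, hB, map_sum, Matrix.sum_apply, Finset.mul_sum]
      exact I.sum_mem fun k _ => hD.smallO (hb k) _ _ _ _
    · rw [hZ B, hZ' A, mul_assoc, ← mul_assoc _ B, hZ' B, mul_assoc, hZi', mul_one]
    · rw [hZ' A, hZ B, mul_assoc, ← mul_assoc _ A, hZ A, mul_assoc, hZi, mul_one]
  · refine main (Matrix.scalar (Fin m) z * A) (Matrix.scalar (Fin m) z⁻¹ * B) ?_ ?_ ?_ ?_
    · intro i j
      rw [hsc, hA, map_sum, Matrix.sum_apply, Finset.mul_sum]
      exact I.sum_mem fun k _ => hD.smallO (hc k) _ _ _ _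
    · intro i j
      rw [hsc, hB, map_sum, Matrix.sum_apply, Finset.mul_sum]
      exact I.sum_mem fun k _ => hD.smallI (hb k) _ _ _ _
    · rw [hZ' B, hZ A, mul_assoc, ← mul_assoc _ B, hZ B, mul_assoc, hZi, mul_one]
    · rw [hZ A, hZ' B, mul_assoc, ← mul_assoc _ A, hZ' A, mul_assoc, hZi', mul_one]

/-- **the pivot sum of the image of a matrix over `L` is a function of the determinant** -/
theorem Dt.det (hm : 0 < m) (i₀ : Fin n) {y : Matrix (Fin n) (Fin n) L}
    (hy : Cg (iL G z I) y) :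
    Cg I (G y) ∧ y.det - 1 ∈ iL G z I ∧ ps Ψ m (G y) = psiL G Ψ i₀ y.det := by
  have hr := hD.rdL hm i₀
  obtain ⟨h1, h2⟩ := ps_det_field hr y hy
  rw [← h2]
  obtain ⟨l, hl, rfl⟩ := exists_list hr n y hy
  have h3 : ∀ Z ∈ l.map G, Cg I Z := by
    intro Z hZ
    obtain ⟨Y, hY, rfl⟩ := List.mem_map.mp hZ
    obtain ⟨c, b, hcb, rfl⟩ := hl Y hY
    exact (hD.rank1 i₀ hcb).1
  obtain ⟨h4, h5⟩ := cg_list hD.rd (l.map G) h3
  obtain ⟨h6, h7⟩ := cg_list hr l fun Y hY => (hl Y hY).cg hr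
  refine ⟨by rw [map_list_prod]; exact h4, h1, ?_⟩
  rw [map_list_prod, h5, h7, List.map_map]
  congr 1
  refine List.map_congr_left fun Y hY => ?_
  obtain ⟨c, b, hcb, rfl⟩ := hl Y hY
  rw [Function.comp_apply, (hD.rank1 i₀ hcb).2, ps_rank1 hr n c b hcb]

end ta

end Vale.Agent.P011.H132.Odd
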