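import Vale.Agent.P011.H132.Odd.Ta

/-!
# The algebra `D ⊗ L` as an algebra of matrices over `D`
-/

open Matrix TensorProduct

namespace Vale.Agent.P011.H132.Odd

open Vale.Agent.P011.H605.Odd

section xx

variable {K D L : Type*} [Field K] [DivisionRing D] [Algebra K D] [Field L] [Algebra K L]
  {m : ℕ} (lam : Module.Basis (Fin m) K L)

/-- the regular representation of `L`, with entries in `D` -/
noncomputable def reg (D : Type*) [DivisionRing D] [Algebra K D] (lam : Module.Basis (Fin m) K L) :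
    L →ₐ[K] Matrix (Fin m) (Fin m) D :=
  (Algebra.ofId K D).mapMatrix.comp (Algebra.leftMulMatrix lam)

theorem reg_apply (c : L) (i j : Fin m) :
    reg D lam c i j = algebraMap K D (lam.repr (c * lam j) i) := by
  change algebraMap K D (Algebra.leftMulMatrix lam c i j) = _
  rw [Algebra.leftMulMatrix_eq_repr_mul]

/-- the scalar matrices commute with the matrices with entries in `K` -/
theorem scalar_comm (d : D) (Y : Matrix (Fin m) (Fin m) K) :
    Matrix.scalar (Fin m) d * (Algebra.ofId K D).mapMatrix Y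
      = (Algebra.ofId K D).mapMatrix Y * Matrix.scalar (Fin m) d := by
  ext i j
  simp only [Matrix.scalar_apply, Matrix.diagonal_mul, Matrix.mul_diagonal]
  exact (Algebra.commutes (Y i j) d).symm

theorem scalar_reg (d : D) (c : L) :
    Commute (Matrix.scalarAlgHom (Fin m) K d) (reg D lam c) :=
  scalar_comm d _

/-- left multiplication on `D ⊗ L`, right `D`-basis `1 ⊗ lam j` -/
noncomputable def xx (D : Type*) [DivisionRing D] [Algebra K D] (lam : Module.Basis (Fin m) K L) :
    D ⊗[K] L →ₐ[K] Matrix (Fin m) (Fin m) D :=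
  Algebra.TensorProduct.lift (Matrix.scalarAlgHom (Fin m) K) (reg D lam) (scalar_reg lam)

theorem xx_tmul (d : D) (c : L) :
    xx D lam (d ⊗ₜ c) = Matrix.scalar (Fin m) d * reg D lam c :=
  Algebra.TensorProduct.lift_tmul _ _ _ _ _

theorem xx_tmul_apply (d : D) (c : L) (i j : Fin m) :
    xx D lam (d ⊗ₜ c) i j = d * algebraMap K D (lam.repr (c * lam j) i) := by
  rw [xx_tmul, Matrix.scalar_apply, Matrix.diagonal_mul, reg_apply]

theorem xx_one_tmul (c : L) : xx D lam (1 ⊗ₜ c) = reg D lam c := by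
  rw [xx_tmul, map_one, one_mul]

/-- the matrix of `σ` -/
noncomputable def ss (D : Type*) [DivisionRing D] [Algebra K D] (lam : Module.Basis (Fin m) K L)
    (σ : L ≃ₐ[K] L) : Matrix (Fin m) (Fin m) D :=
  (Algebra.ofId K D).mapMatrix (LinearMap.toMatrix lam lam σ.toLinearMap)

theorem ss_mul_symm (σ : L ≃ₐ[K] L) : ss D lam σ * ss D lam σ.symm = 1 := by
  rw [ss, ss, ← map_mul, ← LinearMap.toMatrix_comp]
  have : σ.toLinearMap ∘ₗ σ.symm.toLinearMap = LinearMap.id := by
    ext x; simp
  rw [this, LinearMap.toMatrix_id, map_one]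

theorem ss_symm_mul (σ : L ≃ₐ[K] L) : ss D lam σ.symm * ss D lam σ = 1 := by
  have := ss_mul_symm (D := D) lam σ.symm
  simpa using this

/-- `1 ⊗ σ` -/
noncomputable def tw (D : Type*) [DivisionRing D] [Algebra K D] (σ : L ≃ₐ[K] L) :
    D ⊗[K] L ≃ₐ[K] D ⊗[K] L :=
  Algebra.TensorProduct.congr AlgEquiv.refl σ

@[simp] theorem tw_tmul (σ : L ≃ₐ[K] L) (d : D) (c : L) :
    tw D σ (d ⊗ₜ c) = d ⊗ₜ σ c := by
  simp [tw]

/-- **the twist is conjugation by a fixed matrix** -/
theorem xx_tw (σ : L ≃ₐ[K] L) (y : D ⊗[K] L) :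
    xx D lam (tw D σ y) = ss D lam σ * xx D lam y * ss D lam σ.symm := by
  induction y using TensorProduct.induction_on with
  | zero => simp
  | add y z hy hz => rw [map_add, map_add, map_add, hy, hz]; noncomm_ring
  | tmul d c =>
    rw [tw_tmul, xx_tmul, xx_tmul]
    have h1 : reg D lam (σ c) = ss D lam σ * reg D lam c * ss D lam σ.symm := by
      rw [reg, AlgHom.comp_apply, AlgHom.comp_apply, ss, ss, ← map_mul, ← map_mul]
      congr 1
      rw [Algebra.leftMulMatrix_apply, Algebra.leftMulMatrix_apply, ← LinearMap.toMatrix_comp,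
        ← LinearMap.toMatrix_comp]
      congr 1
      ext x
      simp
    rw [h1]
    have h2 : Matrix.scalar (Fin m) d * ss D lam σ = ss D lam σ * Matrix.scalar (Fin m) d :=
      scalar_comm d _
    rw [← mul_assoc, ← mul_assoc, h2, mul_assoc (ss D lam σ)]

theorem xx_sum {F : Type*} [Field F] [Algebra K F] (ι : F →ₐ[K] D) (y : Fin m → F) :
    xx D lam (∑ i, ι (y i) ⊗ₜ lam i)
      = (∑ i, y i • (Algebra.leftMulMatrix lam (lam i)).map (algebraMap K F)).map ι := by
  rw [map_sum]
  ext a b
  rw [Matrix.sum_apply, Matrix.map_apply, Matrix.sum_apply, map_sum]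
  refine Finset.sum_congr rfl fun i _ => ?_
  rw [xx_tmul_apply, Matrix.smul_apply, Matrix.map_apply, smul_eq_mul,
    Algebra.leftMulMatrix_eq_repr_mul]
  exact (congrArg (ι (y i) * ·) (ι.commutes _)).symm.trans (map_mul ι _ _).symm

end xx

section semi

variable {K L : Type*} [Field K] [Field L] [Algebra K L] {n : ℕ}

/-- an `L`-algebra automorphism of a matrix algebra preserves the determinant -/
theorem det_alg (α : Matrix (Fin n) (Fin n) L ≃ₐ[L] Matrix (Fin n) (Fin n) L)
    (y : Matrix (Fin n) (Fin n) L) : (α y).det = y.det := by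
  let e := Matrix.toLinAlgEquiv' (R := L) (n := Fin n)
  obtain ⟨T, hT⟩ := AlgEquiv.eq_linearEquivConjAlgEquiv (e.symm.trans (α.trans e))
  have h1 : e (α y) = T.conjAlgEquiv L (e y) := by
    rw [← hT]; simp
  have h2 : LinearMap.det (e (α y)) = LinearMap.det (e y) := by
    rw [h1]
    exact LinearMap.det_conj (e y) T
  have h3 : ∀ M : Matrix (Fin n) (Fin n) L, LinearMap.det (e M) = M.det := fun M =>
    LinearMap.det_toLin' M
  rw [h3, h3] at h2
  exact h2

/-- a semilinear automorphism of a matrix algebra -/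
theorem det_semi (s : Matrix (Fin n) (Fin n) L ≃+* Matrix (Fin n) (Fin n) L) (σ : L ≃+* L)
    (hs : ∀ c, s (Matrix.scalar (Fin n) c) = Matrix.scalar (Fin n) (σ c))
    (y : Matrix (Fin n) (Fin n) L) : (s y).det = σ y.det := by
  let r : Matrix (Fin n) (Fin n) L ≃+* Matrix (Fin n) (Fin n) L := σ.symm.mapMatrix
  have hr : ∀ c, r (Matrix.scalar (Fin n) c) = Matrix.scalar (Fin n) (σ.symm c) := fun c => by
    change (Matrix.scalar (Fin n) c).map σ.symm = _
    ext i j
    rw [Matrix.map_apply, Matrix.scalar_apply, Matrix.scalar_apply, Matrix.diagonal_apply,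
      Matrix.diagonal_apply]
    split_ifs
    · rfl
    · exact map_zero _
  let α : Matrix (Fin n) (Fin n) L ≃ₐ[L] Matrix (Fin n) (Fin n) L :=
    AlgEquiv.ofRingEquiv (f := s.trans r) (fun c => by
      change r (s (Matrix.scalar (Fin n) c)) = Matrix.scalar (Fin n) c
      rw [hs, hr, RingEquiv.symm_apply_apply])
  have h1 := det_alg α y
  have h2 : α y = (s y).map σ.symm := rfl
  rw [h2] at h1
  have h3 : ((s y).map σ.symm).det = σ.symm (s y).det :=
    (RingHom.map_det (σ.symm : L →+* L) (s y)).symm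
  rw [h3] at h1
  rw [← h1, RingEquiv.apply_symm_apply]

end semi

end Vale.Agent.P011.H132.Odd
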